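import Mathlib.Data.ENat.Basic
import Mathlib.Data.Fintype.BigOperators
import Mathlib.Data.Fintype.Powerset

/-!
Second statement-level formulation for problem P213, part 1.
-/

open Finset

namespace Vale.Agent.P213.St2

/-- A set of cells of all dimensions (a cell is identified with its identities), with the
`n`-dimensional sources `bd false n x` and targets `bd true n x`, and the composition
`cmp n x y` of `x` and `y` along an `n`-cell. -/
structure Raw where
  Cel : Type
  bd : Bool → ℕ → Cel → Cel
  cmp : (n : ℕ) → (x y : Cel) → bd true n x = bd false n y → Cel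

variable {A B : Raw} {m k : ℕ}

/-- The `n`-target of `x` is the `n`-source of `y`. -/
def Cp (A : Raw) (n : ℕ) (x y : A.Cel) : Prop := A.bd true n x = A.bd false n y

/-- Compatibility of a function with sources, targets and compositions. -/
def IsFun (f : A.Cel → B.Cel) : Prop :=
  (∀ e n x, f (A.bd e n x) = B.bd e n (f x)) ∧
    ∀ n x y (h : Cp A n x y) (h' : Cp B n (f x) (f y)),
      f (A.cmp n x y h) = B.cmp n (f x) (f y) h'

/-- Strict functors. -/
structure Fun (A B : Raw) where
  fn : A.Cel → B.Cel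
  prf : IsFun fn

/-- Strict `n`-categories, `n` finite or `⊤`. -/
def IsNCat (n : ℕ∞) (A : Raw) : Prop :=
  (∀ x, ∃ k, A.bd false k x = x) ∧
  (∀ k : ℕ, n ≤ k → ∀ x, A.bd false k x = x) ∧
  (∀ e e' k m x, A.bd e k (A.bd e' m x) = if k < m then A.bd e k x else A.bd e' m x) ∧
  (∀ k x h, A.cmp k (A.bd false k x) x h = x) ∧
  (∀ k x h, A.cmp k x (A.bd true k x) h = x) ∧
  ∀ k x y (h : Cp A k x y),
    A.bd false k (A.cmp k x y h) = A.bd false k x ∧
    A.bd true k (A.cmp k x y h) = A.bd true k y ∧
    (∀ e m (h' : Cp A k (A.bd e m x) (A.bd e m y)), k < m →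
      A.bd e m (A.cmp k x y h) = A.cmp k (A.bd e m x) (A.bd e m y) h') ∧
    (∀ z (h₁ : Cp A k y z) (h₂ : Cp A k (A.cmp k x y h) z) (h₃ : Cp A k x (A.cmp k y z h₁)),
      A.cmp k (A.cmp k x y h) z h₂ = A.cmp k x (A.cmp k y z h₁) h₃) ∧
    ∀ m z w (h₁ : Cp A k z w) (h₂ : Cp A m (A.cmp k x y h) (A.cmp k z w h₁))
      (h₃ : Cp A m x z) (h₄ : Cp A m y w) (h₅ : Cp A k (A.cmp m x z h₃) (A.cmp m y w h₄)),
      m < k → A.cmp m (A.cmp k x y h) (A.cmp k z w h₁) h₂ =
        A.cmp k (A.cmp m x z h₃) (A.cmp m y w h₄) h₅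

/-- Pairs of nonnegative chains of the simplex with `m` vertices; `t` stands for
the face with vertex set `t`, of dimension `#t - 1`. -/
def Ch (m : ℕ) : Type := Bool → Finset (Fin m) → ℕ

/-- Tables: in the chain complex augmented by the empty face, the boundary of `x false` and of
`x true` is `x true - x false`; `x false` has coefficient `0` and `x true` coefficient `1` at
the empty face. -/
def IsTab (x : Ch m) : Prop := x false ∅ = 0 ∧ x true ∅ = 1 ∧
  ∀ e t, ∑ i ∈ tᶜ, (-1) ^ #{j ∈ t | j < i} * (x e (insert i t) : ℤ) = x true t - x false t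

structure Tab (m : ℕ) where
  ch : Ch m
  tb : IsTab ch

/-- The `n`-source and `n`-target of a table. -/
def Ch.sd (e : Bool) (n : ℕ) (x : Ch m) : Ch m :=
  fun e' t => if #t ≤ n then x e' t else if #t = n + 1 then x e t else 0

/-- The composite of tables. -/
def Ch.cc (n : ℕ) (x y : Ch m) : Ch m := fun e t => x e t + y e t - x.sd true n e t

/-- The direct image of chains: a face goes to its image, or to `0` if the image has a
smaller dimension. -/
def Ch.push (θ : Fin m → Fin k) (x : Ch m) : Ch k :=
  fun e t => ∑ s with s.image θ = t ∧ #s = #t, x e s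

end Vale.Agent.P213.St2
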